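import Vale.Agent.P167.H661.Joint

/-!
Wiring a set `Y` increases the probability that `X` and `Y` are not joined (`q ≤ 1`).
-/

namespace Vale.Agent.P167.H661

open Finset Vale.Agent.P167.H623

set_option linter.unusedSectionVars false

variable {V E : Type*} [Fintype V] [DecidableEq V] [Fintype E] [DecidableEq E]
  (a b : E → V) {w : E → ℝ} {s : ℝ}

/-- **Increasing functions of the component of `W` and avoidance events are negatively
correlated.** -/
theorem MM_le (hw : ∀ e, 0 ≤ w e) (hs0 : 0 ≤ s) (hs : s < 1) {κ : ℝ} (hκ : 0 ≤ κ)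
    {f : Finset E → ℝ} (hf : Monotone f) {W t : Finset V} (hWt : Disjoint W t) (X : Finset V) :
    MM a b w (1 - s) κ W t X f ≤ EE a b w s W t f * NN a b w (1 - s) κ X (W ∪ t)ᶜ := by
  rw [MM_rec a b s κ hw hWt, ← NN_rec' a b κ hw W t X, mul_sum]
  refine sum_le_sum fun R hR => ?_
  rw [mem_filter, mem_powerset, subset_compl_iff_disjoint_right, disjoint_union_right] at hR
  have h3 : EE a b w s W (t ∪ R) f ≤ EE a b w s W t f :=
    EE_mono a b hw hs0 hs hf W _ t (t ∪ R) subset_union_left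
      (disjoint_union_right.2 ⟨hWt, hR.1.1.symm⟩) le_rfl
  rw [MM_EE a b hw hs]
  have h4 : 0 ≤ hh a b w R * Phi a b w s κ X R :=
    mul_nonneg (hh_nonneg a b w hw _) (Phi_nonneg a b w s κ hw hs0 hs.le hκ _ _)
  have h5 := XX_pos a b w s hw hs (W ∪ (t ∪ R))ᶜ
  have h6 := mul_le_mul_of_nonneg_left (mul_le_mul_of_nonneg_right h3 h5.le) h4
  linarith [h6]

/-! ### The number of the clusters which meet `Y` -/

/-- The number of the classes which meet `Y`. -/
noncomputable def nc (P : Setoid V) (Y : Finset V) : ℕ := (Y.image (cls P)).card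

theorem nc_anti {P P' : Setoid V} (h : P ≤ P') (Y : Finset V) : nc P' Y ≤ nc P Y := by
  classical
  rw [nc, nc]
  refine card_le_card_of_surjOn (fun c => univ.filter fun y => ∃ x ∈ c, P' x y) ?_
  intro c hc
  rw [mem_coe, mem_image] at hc
  obtain ⟨y, hy, rfl⟩ := hc
  refine ⟨cls P y, ?_, ?_⟩
  · rw [mem_coe]
    exact mem_image_of_mem _ hy
  · ext z
    simp only [mem_filter, mem_univ, true_and, mem_cls]
    constructor
    · rintro ⟨x, hx, hxz⟩
      exact P'.trans (h hx) hxz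
    · intro h'
      exact ⟨y, P.refl y, h'⟩

open Classical in
theorem card_classes (P : Setoid V) (Y : Finset V) :
    (classes P).card = ((classes P).filter fun c => Disjoint c Y).card + nc P Y := by
  rw [← card_filter_add_card_filter_not (s := classes P) fun c => Disjoint c Y, nc]
  congr 2
  ext c
  rw [mem_filter, mem_classes, mem_image]
  constructor
  · rintro ⟨⟨x, rfl⟩, hx⟩
    obtain ⟨y, hy, hyY⟩ := not_disjoint_iff.1 hx
    exact ⟨y, hyY, (cls_eq_iff.2 (mem_cls.1 hy)).symm⟩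
  · rintro ⟨y, hy, rfl⟩
    exact ⟨⟨y, rfl⟩, not_disjoint_iff.2 ⟨y, self_mem_cls P y, hy⟩⟩

theorem cls_oW {W : Finset V} {ω : Finset E} {y : V} (hy : y ∈ W) :
    cls (conf a b (oW a b W ∅ ω)) y = cls (conf a b ω) y := by
  have hres : res a b (∅ : Finset V)ᶜ ω = ω := by
    ext e
    simp [mem_res]
  have hcl : Closed a b (clW a b W ∅ ω) ω := by
    intro e he
    rw [mem_clW, mem_clW, hres]
    constructor
    · rintro ⟨-, z, hz, h⟩
      exact ⟨notMem_empty _, z, hz, Setoid.trans' _ h (conf_edge a b he)⟩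
    · rintro ⟨-, z, hz, h⟩
      exact ⟨notMem_empty _, z, hz, Setoid.trans' _ h (Setoid.symm' _ (conf_edge a b he))⟩
  rw [oW, cls_res hcl (subset_clW (disjoint_empty_right W) ω hy)]

theorem nc_oW (W : Finset V) (ω : Finset E) :
    nc (conf a b (oW a b W ∅ ω)) W = nc (conf a b ω) W := by
  rw [nc, nc]
  congr 1
  exact image_congr fun y hy => cls_oW a b hy

theorem mono_pow_nc {q : ℝ} (hq0 : 0 ≤ q) (hq1 : q ≤ 1) (Y : Finset V) :
    Monotone fun ξ : Finset E => q ^ nc (conf a b ξ) Y :=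
  fun _ _ h => pow_le_pow_of_le_one hq0 hq1 (nc_anti (conf_mono a b h) Y)

open Classical in
/-- The sum of `w` times `q` to the number of the clusters, `A` a condition. -/
noncomputable def ZS (w : E → ℝ) (q : ℝ) (ρ : Setoid V) (A : Finset E → Prop) : ℝ :=
  ∑ ω ∈ (univ : Finset E).powerset with A ω,
    (∏ e ∈ ω, w e) * q ^ (classes (conf a b ω ⊔ ρ)).card

/-- The partition with the block `Y`. -/
def blk (Y : Finset V) : Setoid V where
  r x y := x = y ∨ (x ∈ Y ∧ y ∈ Y)
  iseqv := by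
    refine ⟨fun x => Or.inl rfl, ?_, ?_⟩
    · rintro x y (h | h)
      · exact Or.inl h.symm
      · exact Or.inr ⟨h.2, h.1⟩
    · rintro x y z (rfl | h) (rfl | h')
      · exact Or.inl rfl
      · exact Or.inr h'
      · exact Or.inr h
      · exact Or.inr ⟨h.1, h'.2⟩

theorem blk_iff {Y : Finset V} {x y : V} : blk Y x y ↔ x = y ∨ (x ∈ Y ∧ y ∈ Y) := Iff.rfl

theorem sup_blk_iff (P : Setoid V) (Y : Finset V) (x y : V) :
    (P ⊔ blk Y) x y ↔ P x y ∨ ((∃ z ∈ Y, P x z) ∧ ∃ z ∈ Y, P y z) := by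
  constructor
  · intro h
    let Q : Setoid V := ⟨fun x y => P x y ∨ ((∃ z ∈ Y, P x z) ∧ ∃ z ∈ Y, P y z), by
      refine ⟨fun x => Or.inl (P.refl x), ?_, ?_⟩
      · rintro x y (h | h)
        · exact Or.inl (P.symm h)
        · exact Or.inr ⟨h.2, h.1⟩
      · rintro x y z (h | ⟨⟨u, hu, h1⟩, v, hv, h2⟩) (h' | ⟨⟨u', hu', h3⟩, v', hv', h4⟩)
        · exact Or.inl (P.trans h h')
        · exact Or.inr ⟨⟨u', hu', P.trans h h3⟩, v', hv', h4⟩
        · exact Or.inr ⟨⟨u, hu, h1⟩, v, hv, P.trans (P.symm h') h2⟩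
        · exact Or.inr ⟨⟨u, hu, h1⟩, v', hv', h4⟩⟩
    have hle : P ⊔ blk Y ≤ Q := by
      apply sup_le
      · intro x y h
        exact Or.inl h
      · rintro x y (rfl | ⟨hx, hy⟩)
        · exact Or.inl (P.refl x)
        · exact Or.inr ⟨⟨x, hx, P.refl x⟩, y, hy, P.refl y⟩
    exact hle h
  · have h1 : P ≤ P ⊔ blk Y := le_sup_left
    have h2 : blk Y ≤ P ⊔ blk Y := le_sup_right
    rintro (h | ⟨⟨u, hu, h3⟩, v, hv, h4⟩)
    · exact h1 h
    · exact Setoid.trans' _ (h1 h3) (Setoid.trans' _ (h2 (Or.inr ⟨hu, hv⟩))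
        (Setoid.symm' _ (h1 h4)))

open Classical in
theorem card_classes_blk (P : Setoid V) (Y : Finset V) :
    (classes (P ⊔ blk Y)).card =
      ((classes P).filter fun c => Disjoint c Y).card + (if Y = ∅ then 0 else 1) := by
  rw [card_classes (P ⊔ blk Y) Y]
  congr 1
  · congr 1
    have key : ∀ x, Disjoint (cls P x) Y → cls (P ⊔ blk Y) x = cls P x := by
      intro x hx
      ext y
      rw [mem_cls, mem_cls, sup_blk_iff]
      constructor
      · rintro (h | ⟨⟨z, hz, h⟩, -⟩)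
        · exact h
        · exact absurd hz (disjoint_left.1 hx (mem_cls.2 h))
      · exact Or.inl
    have key' : ∀ x, Disjoint (cls (P ⊔ blk Y) x) Y → Disjoint (cls P x) Y := by
      intro x hx
      refine hx.mono_left fun y hy => ?_
      rw [mem_cls] at hy ⊢
      exact (sup_blk_iff P Y x y).2 (Or.inl hy)
    ext c
    rw [mem_filter, mem_filter, mem_classes, mem_classes]
    constructor
    · rintro ⟨⟨x, rfl⟩, hx⟩
      have h1 := key' x hx
      exact ⟨⟨x, (key x h1).symm⟩, hx⟩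
    · rintro ⟨⟨x, rfl⟩, hx⟩
      exact ⟨⟨x, key x hx⟩, hx⟩
  · rw [nc]
    split_ifs with h
    · rw [h, image_empty, card_empty]
    · obtain ⟨y, hy⟩ := nonempty_iff_ne_empty.2 h
      rw [card_eq_one]
      refine ⟨cls (P ⊔ blk Y) y, ?_⟩
      ext c
      rw [mem_image, mem_singleton]
      constructor
      · rintro ⟨z, hz, rfl⟩
        rw [cls_eq_iff, sup_blk_iff]
        exact Or.inr ⟨⟨z, hz, P.refl z⟩, y, hy, P.refl y⟩
      · rintro rfl
        exact ⟨y, hy, rfl⟩

theorem cond_iff {X Y : Finset V} {ω : Finset E} :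
    (∀ x ∈ X, Disjoint (cls (conf a b ω) x) Y) ↔ ∀ x ∈ X, ∀ y ∈ Y, ¬ conf a b ω x y := by
  refine forall₂_congr fun x _ => ?_
  rw [disjoint_left]
  constructor
  · intro h y hy hxy
    exact h (mem_cls.2 hxy) hy
  · intro h y hy hyY
    exact h y hyY (mem_cls.1 hy)

open Classical in
theorem wt_cw_eq (q : ℝ) (W X : Finset V) (P : Setoid V) :
    wt (cw q q W X) P = if ∀ x ∈ X, Disjoint (cls P x) W then
      q ^ ((classes P).filter fun c => Disjoint c W).card else 0 := by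
  rw [wt_cw_split]
  have : (∏ c ∈ (classes P).filter (fun c => Disjoint c W), if Disjoint c X then q else q) =
      q ^ ((classes P).filter fun c => Disjoint c W).card := by
    simp
  rw [this]
  split_ifs
  · rw [mul_one]
  · rw [mul_zero]

/-- **Wiring `Y` decreases the probability that `X` and `Y` are joined**, `q ≤ 1`: the free case. -/
theorem free_le (hw : ∀ e, 0 ≤ w e) {q : ℝ} (hq0 : 0 < q) (hq1 : q ≤ 1) (X Y : Finset V) :
    ZS a b w q ⊥ (fun ω => ∀ x ∈ X, ∀ y ∈ Y, ¬ conf a b ω x y) *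
        ZS a b w q (blk Y) (fun _ => True) ≤
      ZS a b w q (blk Y) (fun ω => ∀ x ∈ X, ∀ y ∈ Y, ¬ conf a b ω x y) *
        ZS a b w q ⊥ (fun _ => True) := by
  classical
  obtain ⟨s, rfl⟩ : ∃ s, q = 1 - s := ⟨1 - q, by ring⟩
  have hs0 : 0 ≤ s := by linarith
  have hs1 : s < 1 := by linarith
  have hmono := mono_pow_nc a b hq0.le hq1 Y
  have h := MM_le a b hw hs0 hs1 hq0.le hmono (disjoint_empty_right Y) X
  have hX := XX_pos a b w s hw hs1 (Y ∪ ∅)ᶜ
  -- the four sums
  have e1 : MM a b w (1 - s) (1 - s) Y ∅ X (fun ξ => (1 - s) ^ nc (conf a b ξ) Y) =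
      ZS a b w (1 - s) ⊥ (fun ω => ∀ x ∈ X, ∀ y ∈ Y, ¬ conf a b ω x y) := by
    rw [MM, ZS, sum_filter]
    refine sum_congr rfl fun ω _ => ?_
    rw [union_empty, wt_cw_eq, nc_oW, sup_bot_eq, card_classes (conf a b ω) Y]
    by_cases hc : ∀ x ∈ X, ∀ y ∈ Y, ¬ conf a b ω x y
    · rw [if_pos ((cond_iff a b).2 hc), if_pos hc, pow_add]; ring
    · rw [if_neg (fun k => hc ((cond_iff a b).1 k)), if_neg hc]; ring
  have e2 : MM a b w (1 - s) 1 Y ∅ ∅ (fun ξ => (1 - s) ^ nc (conf a b ξ) Y) =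
      ZS a b w (1 - s) ⊥ (fun _ => True) := by
    rw [MM, ZS, filter_true]
    refine sum_congr rfl fun ω _ => ?_
    rw [union_empty, wt_eq_pow, nc_oW, sup_bot_eq, card_classes (conf a b ω) Y, pow_add]
    ring
  have e3 : ZS a b w (1 - s) (blk Y) (fun ω => ∀ x ∈ X, ∀ y ∈ Y, ¬ conf a b ω x y) =
      (if Y = ∅ then 1 else (1 - s)) * NN a b w (1 - s) (1 - s) X (Y ∪ ∅)ᶜ := by
    rw [NN, ZS, sum_filter, mul_sum]
    refine sum_congr rfl fun ω _ => ?_
    rw [compl_compl, union_empty, wt_cw_eq, card_classes_blk]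
    by_cases hc : ∀ x ∈ X, ∀ y ∈ Y, ¬ conf a b ω x y
    · rw [if_pos ((cond_iff a b).2 hc), if_pos hc]
      split_ifs
      · ring
      · rw [pow_succ]; ring
    · rw [if_neg (fun k => hc ((cond_iff a b).1 k)), if_neg hc]; ring
  have e4 : ZS a b w (1 - s) (blk Y) (fun _ => True) =
      (if Y = ∅ then 1 else (1 - s)) * XX a b w s (Y ∪ ∅)ᶜ := by
    rw [XX, NN, ZS, filter_true, mul_sum]
    refine sum_congr rfl fun ω _ => ?_
    rw [compl_compl, union_empty, wt_eq_pow, card_classes_blk]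
    split_ifs
    · ring
    · rw [pow_succ]; ring
  rw [EE, e1, e2, div_mul_eq_mul_div, le_div_iff₀ hX] at h
  rw [e3, e4]
  have hc : (0 : ℝ) ≤ if Y = ∅ then 1 else (1 - s) := by
    split_ifs
    · exact zero_le_one
    · exact hq0.le
  have := mul_le_mul_of_nonneg_left h hc
  linarith [this]

end Vale.Agent.P167.H661
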