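import Vale.Agent.P167.H661.Free

/-!
The worst wiring for a connection: `X` and `Y` wired, separately (`q ≤ 1`).
-/

namespace Vale.Agent.P167.H661

open Finset Vale.Agent.P167.H623

set_option linter.unusedSectionVars false

variable {V E : Type*} [Fintype V] [DecidableEq V] [Fintype E] [DecidableEq E]
  (a b : E → V) {w : E → ℝ}

theorem card_classes_eq (P : Setoid V) : (classes P).card = Nat.card (Quotient P) := by
  classical
  symm
  rw [← Fintype.card_coe, ← Nat.card_eq_fintype_card]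
  refine Nat.card_congr (Equiv.ofBijective (Quotient.lift
    (fun x => (⟨cls P x, cls_mem P x⟩ : {c // c ∈ classes P})) fun x y h => ?_) ⟨?_, ?_⟩)
  · exact Subtype.ext (cls_eq_iff.2 h)
  · rintro ⟨x⟩ ⟨y⟩ h
    exact Quotient.sound (cls_eq_iff.1 (congrArg Subtype.val h))
  · rintro ⟨c, hc⟩
    obtain ⟨x, rfl⟩ := mem_classes.1 hc
    exact ⟨Quotient.mk P x, rfl⟩

theorem conf_mk (ρ : Setoid V) (ω : Finset E) (x y : V) :
    conf (fun e => Quotient.mk ρ (a e)) (fun e => Quotient.mk ρ (b e)) ω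
      (Quotient.mk ρ x) (Quotient.mk ρ y) ↔ (conf a b ω ⊔ ρ) x y := by
  classical
  have : Fintype (Quotient ρ) := Fintype.ofFinite _
  constructor
  · intro h
    have hρ : ρ ≤ conf a b ω ⊔ ρ := le_sup_right
    let Q : Setoid (Quotient ρ) := ⟨fun u v => Quotient.liftOn₂ u v
      (fun x y => (conf a b ω ⊔ ρ) x y) (fun x y x' y' h h' => propext
        ⟨fun k => Setoid.trans' _ (Setoid.symm' _ (hρ h)) (Setoid.trans' _ k (hρ h')),
          fun k => Setoid.trans' _ (hρ h) (Setoid.trans' _ k (Setoid.symm' _ (hρ h')))⟩), by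
      refine ⟨?_, ?_, ?_⟩
      · rintro ⟨x⟩
        exact Setoid.refl' _ x
      · rintro ⟨x⟩ ⟨y⟩ h
        exact Setoid.symm' _ h
      · rintro ⟨x⟩ ⟨y⟩ ⟨z⟩ h h'
        exact Setoid.trans' _ h h'⟩
    have hle : conf (fun e => Quotient.mk ρ (a e)) (fun e => Quotient.mk ρ (b e)) ω ≤ Q := by
      refine (conf_le_iff _ _).2 fun e he => ?_
      have h1 : conf a b ω ≤ conf a b ω ⊔ ρ := le_sup_left
      exact h1 (conf_edge a b he)
    exact hle h
  · intro h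
    have hle : conf a b ω ⊔ ρ ≤ Setoid.comap (Quotient.mk ρ)
        (conf (fun e => Quotient.mk ρ (a e)) (fun e => Quotient.mk ρ (b e)) ω) := by
      apply sup_le
      · exact (conf_le_iff a b).2 fun e he =>
          conf_edge (fun e => Quotient.mk ρ (a e)) (fun e => Quotient.mk ρ (b e)) he
      · intro u v huv
        rw [Setoid.comap_rel, Quotient.sound huv]
    exact hle h

theorem card_classes_mk {V' : Type*} [Fintype V'] [DecidableEq V'] (m : V → V')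
    (hm : Function.Surjective m) {P : Setoid V} {P' : Setoid V'}
    (h : ∀ x y, P' (m x) (m y) ↔ P x y) : (classes P').card = (classes P).card := by
  rw [card_classes_eq, card_classes_eq]
  symm
  refine Nat.card_congr (Equiv.ofBijective (Quotient.lift (fun x => Quotient.mk P' (m x))
    fun x y k => Quotient.sound ((h x y).2 k)) ⟨?_, ?_⟩)
  · rintro ⟨x⟩ ⟨y⟩ k
    exact Quotient.sound ((h x y).1 (Quotient.exact k))
  · rintro ⟨u⟩
    obtain ⟨x, rfl⟩ := hm u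
    exact ⟨Quotient.mk P x, rfl⟩

theorem ZS_pos (hw : ∀ e, 0 ≤ w e) {q : ℝ} (hq0 : 0 < q) (ρ : Setoid V) :
    0 < ZS a b w q ρ (fun _ => True) := by
  classical
  rw [ZS, filter_true]
  refine sum_pos' (fun ω _ => mul_nonneg (prod_nonneg fun e _ => hw e) (pow_pos hq0 _).le) ?_
  exact ⟨∅, empty_mem_powerset _, by rw [prod_empty, one_mul]; exact pow_pos hq0 _⟩

theorem ZS_congr {q : ℝ} {ρ : Setoid V} {A B : Finset E → Prop} (h : ∀ ω, A ω ↔ B ω) :
    ZS a b w q ρ A = ZS a b w q ρ B := by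
  classical
  rw [ZS, ZS]
  refine sum_congr ?_ fun _ _ => rfl
  ext ω
  rw [mem_filter, mem_filter, h]

/-- **Wiring `Y`**, for an arbitrary boundary condition `ρ`. -/
theorem wire_le (hw : ∀ e, 0 ≤ w e) {q : ℝ} (hq0 : 0 < q) (hq1 : q ≤ 1) (ρ : Setoid V)
    (X Y : Finset V) :
    ZS a b w q ρ (fun ω => ∀ x ∈ X, ∀ y ∈ Y, ¬ (conf a b ω ⊔ ρ) x y) *
        ZS a b w q (ρ ⊔ blk Y) (fun _ => True) ≤
      ZS a b w q (ρ ⊔ blk Y) (fun ω => ∀ x ∈ X, ∀ y ∈ Y, ¬ (conf a b ω ⊔ ρ) x y) *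
        ZS a b w q ρ (fun _ => True) := by
  classical
  have : Fintype (Quotient ρ) := Fintype.ofFinite _
  set a' : E → Quotient ρ := fun e => Quotient.mk ρ (a e) with ha'
  set b' : E → Quotient ρ := fun e => Quotient.mk ρ (b e) with hb'
  set X' : Finset (Quotient ρ) := X.image (Quotient.mk ρ) with hX'
  set Y' : Finset (Quotient ρ) := Y.image (Quotient.mk ρ) with hY'
  have h := free_le a' b' hw hq0 hq1 X' Y'
  have hsurj : Function.Surjective (Quotient.mk ρ) := Quotient.mk_surjective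
  have hA : ∀ ω : Finset E, (∀ x ∈ X', ∀ y ∈ Y', ¬ conf a' b' ω x y) ↔
      ∀ x ∈ X, ∀ y ∈ Y, ¬ (conf a b ω ⊔ ρ) x y := by
    intro ω
    constructor
    · intro k x hx y hy hxy
      exact k _ (mem_image_of_mem _ hx) _ (mem_image_of_mem _ hy) ((conf_mk a b ρ ω x y).2 hxy)
    · intro k u hu v hv huv
      obtain ⟨x, hx, rfl⟩ := mem_image.1 hu
      obtain ⟨y, hy, rfl⟩ := mem_image.1 hv
      exact k x hx y hy ((conf_mk a b ρ ω x y).1 huv)
  have h1 : ∀ ω : Finset E, (classes (conf a' b' ω ⊔ ⊥)).card =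
      (classes (conf a b ω ⊔ ρ)).card := by
    intro ω
    rw [sup_bot_eq]
    exact card_classes_mk (Quotient.mk ρ) hsurj fun x y => conf_mk a b ρ ω x y
  have h2 : ∀ ω : Finset E, (classes (conf a' b' ω ⊔ blk Y')).card =
      (classes (conf a b ω ⊔ (ρ ⊔ blk Y))).card := by
    intro ω
    refine card_classes_mk (Quotient.mk ρ) hsurj fun x y => ?_
    rw [← sup_assoc, sup_blk_iff (conf a b ω ⊔ ρ) Y x y, sup_blk_iff]
    refine or_congr (conf_mk a b ρ ω x y) (and_congr ?_ ?_)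
    · constructor
      · rintro ⟨z', hz', k⟩
        obtain ⟨z, hz, rfl⟩ := mem_image.1 hz'
        exact ⟨z, hz, (conf_mk a b ρ ω x z).1 k⟩
      · rintro ⟨z, hz, hz'⟩
        exact ⟨_, mem_image_of_mem _ hz, (conf_mk a b ρ ω x z).2 hz'⟩
    · constructor
      · rintro ⟨z', hz', k⟩
        obtain ⟨z, hz, rfl⟩ := mem_image.1 hz'
        exact ⟨z, hz, (conf_mk a b ρ ω y z).1 k⟩
      · rintro ⟨z, hz, hz'⟩
        exact ⟨_, mem_image_of_mem _ hz, (conf_mk a b ρ ω y z).2 hz'⟩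
  have h3 : ∀ A : Finset E → Prop, ZS a' b' w q ⊥ A = ZS a b w q ρ A := by
    intro A
    rw [ZS, ZS]
    exact sum_congr rfl fun ω _ => by rw [h1]
  have h4 : ∀ A : Finset E → Prop, ZS a' b' w q (blk Y') A = ZS a b w q (ρ ⊔ blk Y) A := by
    intro A
    rw [ZS, ZS]
    exact sum_congr rfl fun ω _ => by rw [h2]
  rw [h3, h3, h4, h4, ZS_congr a b hA, ZS_congr a b hA] at h
  exact h

theorem miss_blk_iff {ρ : Setoid V} {X Y : Finset V} {ω : Finset E} :
    (∀ y ∈ Y, ∀ x ∈ X, ¬ (conf a b ω ⊔ (ρ ⊔ blk Y)) y x) ↔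
      ∀ x ∈ X, ∀ y ∈ Y, ¬ (conf a b ω ⊔ ρ) x y := by
  constructor
  · intro h x hx y hy hxy
    apply h y hy x hx
    rw [← sup_assoc, sup_blk_iff (conf a b ω ⊔ ρ) Y y x]
    exact Or.inl (Setoid.symm' _ hxy)
  · intro h y hy x hx hyx
    rw [← sup_assoc, sup_blk_iff (conf a b ω ⊔ ρ) Y y x] at hyx
    rcases hyx with k | ⟨-, z, hz, k⟩
    · exact h x hx y hy (Setoid.symm' _ k)
    · exact h x hx z hz k

/-- **The worst wiring**: for `q ≤ 1` and an arbitrary boundary condition `ρ`, the probability that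
`X` and `Y` are joined decreases when `X` is wired and `Y` is wired (two blocks). -/
theorem wire_both_le (hw : ∀ e, 0 ≤ w e) {q : ℝ} (hq0 : 0 < q) (hq1 : q ≤ 1) (ρ : Setoid V)
    (X Y : Finset V) :
    ZS a b w q ρ (fun ω => ∀ x ∈ X, ∀ y ∈ Y, ¬ (conf a b ω ⊔ ρ) x y) *
        ZS a b w q (ρ ⊔ blk Y ⊔ blk X) (fun _ => True) ≤
      ZS a b w q (ρ ⊔ blk Y ⊔ blk X) (fun ω => ∀ x ∈ X, ∀ y ∈ Y, ¬ (conf a b ω ⊔ ρ) x y) *
        ZS a b w q ρ (fun _ => True) := by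
  have h1 := wire_le a b hw hq0 hq1 ρ X Y
  have h2 := wire_le a b hw hq0 hq1 (ρ ⊔ blk Y) Y X
  have hm : ∀ ω, (∀ y ∈ Y, ∀ x ∈ X, ¬ (conf a b ω ⊔ (ρ ⊔ blk Y)) y x) ↔
      ∀ x ∈ X, ∀ y ∈ Y, ¬ (conf a b ω ⊔ ρ) x y := fun ω => miss_blk_iff a b
  rw [ZS_congr a b hm, ZS_congr a b hm] at h2
  have p1 := ZS_pos a b hw hq0 ρ
  have p2 := ZS_pos a b hw hq0 (ρ ⊔ blk Y)
  have p3 := ZS_pos a b hw hq0 (ρ ⊔ blk Y ⊔ blk X)
  rw [← div_le_div_iff₀ p1 p2] at h1
  rw [← div_le_div_iff₀ p2 p3] at h2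
  rw [← div_le_div_iff₀ p1 p3]
  exact h1.trans h2

end Vale.Agent.P167.H661
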