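import Vale.Agent.P167.H661.Split

/-!
The joint recursion: the law of the open edges of the component of `W` off `t`, on the event that
`X` is not joined to `W ∪ t`, is a positive combination of the laws of the component of `W` off
`t ∪ R`.
-/

namespace Vale.Agent.P167.H661

open Finset Vale.Agent.P167.H623

set_option linter.unusedSectionVars false

variable {V E : Type*} [Fintype V] [DecidableEq V] [Fintype E] [DecidableEq E]
  (a b : E → V) (w : E → ℝ) (s κ : ℝ)

theorem wA_nonneg {w : E → ℝ} (hw : ∀ e, 0 ≤ w e) (A : Finset V) (e : E) :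
    0 ≤ wA a b w A e := by
  rw [wA]
  split_ifs
  · exact hw e
  · exact le_rfl

theorem wA_eq {A R : Finset V} (h : Disjoint A R) {e : E} (he : e ∈ inE a b R) :
    wA a b w A e = w e := by
  rw [wA, if_pos]
  rw [mem_inE] at he
  rw [mem_inE, mem_compl, mem_compl]
  exact ⟨fun k => disjoint_left.1 h k he.1, fun k => disjoint_left.1 h k he.2⟩

theorem hh_wA {w : E → ℝ} (hw : ∀ e, 0 ≤ w e) {A R : Finset V} (h : Disjoint A R) :
    hh a b (wA a b w A) R = hh a b w R * ∏ e ∈ cr a b A R, (1 + w e) := by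
  rw [hh, hh, cr, prod_filter, ← prod_mul_distrib]
  refine prod_congr rfl fun e _ => ?_
  have h1 : (1 : ℝ) + w e ≠ 0 := by linarith [hw e]
  have ha : a e ∈ A → a e ∉ R := fun k => disjoint_left.1 h k
  have hb : b e ∈ A → b e ∉ R := fun k => disjoint_left.1 h k
  simp only [wA, mem_inE, mem_compl]
  by_cases h2 : a e ∈ A <;> by_cases h3 : b e ∈ A <;> by_cases h4 : a e ∈ R <;>
    by_cases h5 : b e ∈ R <;> simp_all

theorem Phi_wA {A R X : Finset V} (h : Disjoint A R) :
    Phi a b (wA a b w A) s κ X R = Phi a b w s κ X R := by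
  classical
  rw [Phi, Phi]
  refine sum_congr rfl fun g hg => ?_
  rw [mem_filter, mem_powerset] at hg
  rw [term, term]
  have h1 : ∀ B ⊆ inE a b R, ∏ e ∈ B, wA a b w A e = ∏ e ∈ B, w e := fun B hB =>
    prod_congr rfl fun e he => wA_eq a b w h (hB he)
  have h2 : ∀ B ⊆ inE a b R, ∏ e ∈ B, (1 + wA a b w A e) = ∏ e ∈ B, (1 + w e) := fun B hB =>
    prod_congr rfl fun e he => by rw [wA_eq a b w h (hB he)]
  rw [h1 g hg.1]
  congr 1
  refine sum_congr rfl fun B hB => ?_
  rw [h2 B ((mem_powerset.1 hB).trans hg.1)]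

theorem prod_cr_union {A t R : Finset V} (hAt : Disjoint A t) (hAR : Disjoint A R)
    (htR : Disjoint t R) : ∏ e ∈ cr a b A (t ∪ R), (1 + w e) =
      (∏ e ∈ cr a b A t, (1 + w e)) * ∏ e ∈ cr a b A R, (1 + w e) := by
  rw [← prod_union]
  · refine prod_congr ?_ fun _ _ => rfl
    ext e
    rw [mem_union, mem_cr, mem_cr, mem_cr, mem_union, mem_union]
    tauto
  · rw [disjoint_left]
    intro e he he'
    rw [mem_cr] at he he'
    rcases he with ⟨h1, h2⟩ | ⟨h1, h2⟩ <;> rcases he' with ⟨h3, h4⟩ | ⟨h3, h4⟩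
    · exact disjoint_left.1 htR h2 h4
    · exact disjoint_left.1 hAR h1 h3
    · exact disjoint_left.1 hAt h3 h1
    · exact disjoint_left.1 htR h1 h3

/-- **The joint recursion.** -/
theorem MM_rec {w : E → ℝ} (hw : ∀ e, 0 ≤ w e) {W t X : Finset V} {f : Finset E → ℝ}
    (hWt : Disjoint W t) :
    MM a b w (1 - s) κ W t X f = ∑ R ∈ (W ∪ t)ᶜ.powerset with X ⊆ R,
      hh a b w R * Phi a b w s κ X R * MM a b w (1 - s) 1 W (t ∪ R) ∅ f := by
  rw [MM_eq a b w hWt]
  have h1 : ∀ A ∈ tᶜ.powerset.filter (fun A => W ⊆ A),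
      cA a b w W f A * ((∏ e ∈ cr a b A t, (1 + w e)) *
        NN a b (wA a b w A) (1 - s) κ X (A ∪ t)ᶜ) =
      ∑ R ∈ (A ∪ t)ᶜ.powerset with X ⊆ R, hh a b w R * Phi a b w s κ X R *
        (cA a b w W f A * ((∏ e ∈ cr a b A (t ∪ R), (1 + w e)) *
          NN a b (wA a b w A) (1 - s) 1 ∅ (A ∪ (t ∪ R))ᶜ)) := by
    intro A hA
    rw [mem_filter, mem_powerset, subset_compl_iff_disjoint_right] at hA
    rw [NN_rec a b _ s κ (wA_nonneg a b hw A), mul_sum, mul_sum]
    refine sum_congr rfl fun R hR => ?_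
    rw [mem_filter, mem_powerset, subset_compl_iff_disjoint_right, disjoint_union_right] at hR
    have hAR : Disjoint A R := hR.1.1.symm
    have htR : Disjoint t R := hR.1.2.symm
    have h2 : (A ∪ t)ᶜ \ R = (A ∪ (t ∪ R))ᶜ := by
      ext x
      simp only [mem_sdiff, mem_compl, mem_union]
      tauto
    rw [hh_wA a b hw hAR, Phi_wA a b w s κ hAR, XX, h2, prod_cr_union a b w hA.1 hAR htR]
    ring
  rw [sum_congr rfl h1]
  rw [sum_comm' (t' := (W ∪ t)ᶜ.powerset.filter fun R => X ⊆ R)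
    (s' := fun R => (t ∪ R)ᶜ.powerset.filter fun A => W ⊆ A)]
  · refine sum_congr rfl fun R hR => ?_
    rw [mem_filter, mem_powerset, subset_compl_iff_disjoint_right, disjoint_union_right] at hR
    rw [MM_eq a b w (disjoint_union_right.2 ⟨hWt, hR.1.1.symm⟩), mul_sum]
  · intro A R
    simp only [mem_filter, mem_powerset, subset_compl_iff_disjoint_right, disjoint_union_right]
    constructor
    · rintro ⟨⟨h1, h2⟩, ⟨h3, h4⟩, h5⟩
      exact ⟨⟨⟨h1, h3.symm⟩, h2⟩, ⟨h3.mono_right h2, h4⟩, h5⟩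
    · rintro ⟨⟨⟨h1, h2⟩, h3⟩, ⟨h4, h5⟩, h6⟩
      exact ⟨⟨h1, h3⟩, ⟨h2.symm, h5⟩, h6⟩

theorem MM_one {q κ : ℝ} {W t X : Finset V} :
    MM a b w q κ W t X (fun _ => 1) = NN a b w q κ X (W ∪ t)ᶜ := by
  rw [MM, NN, compl_compl]
  exact sum_congr rfl fun ω _ => by rw [mul_one]

/-! ### Monotonicity -/

variable {w s}

/-- On the event that `v` is not joined to `W ∪ t`, the component of `W` off `t` avoids `v`. -/
theorem oW_insert {W t : Finset V} {v : V} {ω : Finset E}
    (hv : Disjoint (cls (conf a b ω) v) (W ∪ t)) : oW a b W (t ∪ {v}) ω = oW a b W t ω := by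
  have h1 : clW a b W (t ∪ {v}) ω = clW a b W t ω := by
    apply Subset.antisymm (clW_mono subset_union_left subset_rfl)
    intro x hx
    have hc : ∀ z ∈ W, ¬ conf a b ω z v := by
      intro z hz h
      exact disjoint_left.1 hv (mem_cls.2 (Setoid.symm' _ h)) (mem_union_left _ hz)
    rw [mem_clW] at hx ⊢
    obtain ⟨hx, z, hz, h⟩ := hx
    have hle : conf a b (res a b tᶜ ω) ≤ conf a b ω := conf_mono a b (res_subset _ _)
    refine ⟨?_, z, hz, ?_⟩
    · rw [mem_union, mem_singleton]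
      rintro (h2 | rfl)
      · exact hx h2
      · exact hc z hz (hle h)
    · -- the class of `z` is closed
      have hcl : Closed a b (cls (conf a b (res a b tᶜ ω)) z) (res a b tᶜ ω) := by
        intro e he
        rw [mem_cls, mem_cls]
        exact ⟨fun h => Setoid.trans' _ h (conf_edge a b he),
          fun h => Setoid.trans' _ h (Setoid.symm' _ (conf_edge a b he))⟩
      rw [conf_res hcl (self_mem_cls _ z)] at h
      refine conf_mono a b (fun e he => ?_) h
      rw [mem_res, mem_res, mem_compl, mem_compl, mem_cls, mem_cls] at he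
      rw [mem_res, mem_compl, mem_compl, mem_union, mem_union, mem_singleton, mem_singleton]
      refine ⟨he.1.1, ?_, ?_⟩
      · rintro (h2 | h2)
        · exact he.1.2.1 h2
        · exact hc z hz (h2 ▸ hle he.2.1)
      · rintro (h2 | h2)
        · exact he.1.2.2 h2
        · exact hc z hz (h2 ▸ hle he.2.2)
  rw [oW, oW, h1]

theorem MM_wire (f : Finset E → ℝ) (W t : Finset V) {v : V} :
    ∑ ω ∈ (univ : Finset E).powerset, (∏ e ∈ ω, w e) *
      wt (cw (1 - s) 1 (W ∪ t) ∅) (conf a b ω) * f (oW a b W (t ∪ {v}) ω) =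
    MM a b w (1 - s) 1 W (t ∪ {v}) ∅ f - s * MM a b w (1 - s) 1 W t {v} f := by
  rw [MM, MM, mul_sum, ← sum_sub_distrib]
  refine sum_congr rfl fun ω _ => ?_
  have h1 := wt_wire (conf a b ω) s (W ∪ t)ᶜ v
  have h2 : ((W ∪ t)ᶜ \ {v})ᶜ = W ∪ (t ∪ {v}) := by
    ext x
    simp only [mem_compl, mem_sdiff, mem_union, mem_singleton]
    tauto
  rw [h2, compl_compl] at h1
  rw [h1]
  by_cases h : Disjoint (cls (conf a b ω) v) (W ∪ t)
  · rw [oW_insert a b h]
    ring
  · have h3 : wt (cw (1 - s) 1 (W ∪ t) {v}) (conf a b ω) = 0 := by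
      refine prod_eq_zero (cls_mem _ v) ?_
      rw [cw, if_neg h, if_neg]
      exact not_disjoint_iff.2 ⟨v, self_mem_cls _ v, mem_singleton_self v⟩
    rw [h3]
    ring

/-- The expectation of `f` of the open edges of the component of `W` off `t`. -/
noncomputable def EE (w : E → ℝ) (s : ℝ) (W t : Finset V) (f : Finset E → ℝ) : ℝ :=
  MM a b w (1 - s) 1 W t ∅ f / XX a b w s (W ∪ t)ᶜ

theorem MM_EE (hw : ∀ e, 0 ≤ w e) (hs : s < 1) (W t : Finset V) (f : Finset E → ℝ) :
    MM a b w (1 - s) 1 W t ∅ f = EE a b w s W t f * XX a b w s (W ∪ t)ᶜ := by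
  rw [EE, div_mul_cancel₀ _ (XX_pos a b w s hw hs _).ne']

theorem NN_rec' (hw : ∀ e, 0 ≤ w e) (W t X : Finset V) :
    ∑ R ∈ (W ∪ t)ᶜ.powerset with X ⊆ R,
      hh a b w R * Phi a b w s κ X R * XX a b w s (W ∪ (t ∪ R))ᶜ =
      NN a b w (1 - s) κ X (W ∪ t)ᶜ := by
  rw [NN_rec a b w s κ hw]
  refine sum_congr rfl fun R _ => ?_
  have h2 : (W ∪ t)ᶜ \ R = (W ∪ (t ∪ R))ᶜ := by
    ext x
    simp only [mem_sdiff, mem_compl, mem_union]
    tauto
  rw [h2]

/-- **Monotonicity in the removed wired set.** -/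
theorem EE_mono (hw : ∀ e, 0 ≤ w e) (hs0 : 0 ≤ s) (hs : s < 1) {f : Finset E → ℝ}
    (hf : Monotone f) (W : Finset V) : ∀ n : ℕ, ∀ t t' : Finset V, t ⊆ t' → Disjoint W t' →
      (W ∪ t)ᶜ.card ≤ n → EE a b w s W t' f ≤ EE a b w s W t f := by
  intro n
  induction n with
  | zero =>
    intro t t' htt hW hn
    have h1 : (W ∪ t)ᶜ = ∅ := card_eq_zero.1 (Nat.le_zero.1 hn)
    have h2 : t' = t := by
      refine Subset.antisymm (fun x hx => ?_) htt
      have : x ∉ (W ∪ t)ᶜ := h1 ▸ notMem_empty x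
      rw [mem_compl, not_not, mem_union] at this
      exact this.resolve_left fun k => disjoint_left.1 hW k hx
    rw [h2]
  | succ n ih =>
    intro t t' htt hW hn
    rcases eq_or_ne t' t with rfl | hne
    · exact le_rfl
    · obtain ⟨v, hv', hv⟩ : ∃ v ∈ t', v ∉ t := by
        by_contra h
        push Not at h
        exact hne (Subset.antisymm h htt)
      have hWv : v ∉ W := fun k => disjoint_left.1 hW k hv'
      have hvWt : v ∉ W ∪ t := by
        rw [mem_union]
        rintro (h | h)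
        · exact hWv h
        · exact hv h
      have hWt : Disjoint W t := hW.mono_right htt
      have hcard : (W ∪ (t ∪ {v}))ᶜ.card ≤ n := by
        have h1 : (W ∪ (t ∪ {v}))ᶜ ⊂ (W ∪ t)ᶜ := by
          refine ⟨compl_subset_compl.2 (union_subset_union_right subset_union_left),
            fun h => ?_⟩
          have := h (mem_compl.2 hvWt)
          rw [mem_compl] at this
          exact this (mem_union_right _ (mem_union_right _ (mem_singleton_self v)))
        have := card_lt_card h1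
        omega
      have hsub : t ∪ {v} ⊆ t' := union_subset htt (singleton_subset_iff.2 hv')
      refine (ih (t ∪ {v}) t' hsub hW hcard).trans ?_
      -- one vertex
      have hX := XX_pos a b w s hw hs (W ∪ t)ᶜ
      have h1 : ∑ ω ∈ (univ : Finset E).powerset, (∏ e ∈ ω, w e) *
          wt (cw (1 - s) 1 (W ∪ t) ∅) (conf a b ω) * f (oW a b W (t ∪ {v}) ω) ≤
          MM a b w (1 - s) 1 W t ∅ f := by
        rw [MM]
        refine sum_le_sum fun ω _ => ?_
        refine mul_le_mul_of_nonneg_left (hf (oW_mono subset_union_left subset_rfl)) ?_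
        refine mul_nonneg (prod_nonneg fun e _ => hw e) (prod_nonneg fun c _ => ?_)
        rw [cw]
        simp only [disjoint_empty_right, if_true]
        split_ifs
        · linarith
        · exact zero_le_one
      rw [MM_wire a b f W t] at h1
      have h2 : MM a b w (1 - s) 1 W t {v} f ≤
          EE a b w s W (t ∪ {v}) f * NN a b w (1 - s) 1 {v} (W ∪ t)ᶜ := by
        rw [MM_rec a b s 1 hw hWt, ← NN_rec' a b 1 hw W t {v}, mul_sum]
        refine sum_le_sum fun R hR => ?_
        rw [mem_filter, mem_powerset, subset_compl_iff_disjoint_right, disjoint_union_right,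
          singleton_subset_iff] at hR
        have h3 : EE a b w s W (t ∪ R) f ≤ EE a b w s W (t ∪ {v}) f :=
          ih (t ∪ {v}) (t ∪ R) (union_subset_union_right (singleton_subset_iff.2 hR.2))
            (disjoint_union_right.2 ⟨hWt, hR.1.1.symm⟩) hcard
        rw [MM_EE a b hw hs]
        have h4 : 0 ≤ hh a b w R * Phi a b w s 1 {v} R :=
          mul_nonneg (hh_nonneg a b w hw _) (Phi_nonneg a b w s 1 hw hs0 hs.le zero_le_one _ _)
        have h5 := XX_pos a b w s hw hs (W ∪ (t ∪ R))ᶜ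
        have h6 := mul_le_mul_of_nonneg_left (mul_le_mul_of_nonneg_right h3 h5.le) h4
        linarith [h6]
      have h3 := XX_wire a b w s (W ∪ t)ᶜ v
      have h4 : (W ∪ t)ᶜ \ {v} = (W ∪ (t ∪ {v}))ᶜ := by
        ext x
        simp only [mem_sdiff, mem_compl, mem_union, mem_singleton]
        tauto
      rw [h4] at h3
      rw [EE, EE, le_div_iff₀ hX]
      have h5 := MM_EE a b hw hs W (t ∪ {v}) f
      rw [EE] at h5 h2
      have h6 := mul_le_mul_of_nonneg_left h2 hs0
      rw [h3] at h5 h2 h6 ⊢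
      nlinarith [h1, h5, h6]

end Vale.Agent.P167.H661
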