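import Vale.Agent.P167.H623.Model

/-!
The open edges of the components of a wired set: decomposition of the sums over the configurations.
-/

namespace Vale.Agent.P167.H661

open Finset Vale.Agent.P167.H623

set_option linter.unusedSectionVars false

variable {V E : Type*} [Fintype V] [DecidableEq V] [Fintype E] [DecidableEq E]

/-! ### Products over the classes -/

open Classical in
theorem wt_cw_split (P : Setoid V) (q κ : ℝ) (W T : Finset V) :
    wt (cw q κ W T) P =
      (∏ c ∈ (classes P).filter (fun c => Disjoint c W), if Disjoint c T then q else κ) *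
        (if ∀ x ∈ T, Disjoint (cls P x) W then 1 else 0) := by
  rw [wt, ← prod_filter_mul_prod_filter_not (classes P) (fun c => Disjoint c W)]
  congr 1
  · refine prod_congr rfl fun c hc => ?_
    rw [cw, if_pos (mem_filter.1 hc).2]
  · split_ifs with h
    · refine prod_eq_one fun c hc => ?_
      rw [mem_filter] at hc
      rw [cw, if_neg hc.2, if_pos]
      rw [disjoint_left]
      intro z hz hzT
      obtain ⟨x, rfl⟩ := mem_classes.1 hc.1
      apply hc.2
      rw [cls_eq_iff.2 (mem_cls.1 hz)]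
      exact h z hzT
    · push Not at h
      obtain ⟨x, hx, hx'⟩ := h
      refine prod_eq_zero (mem_filter.2 ⟨cls_mem P x, hx'⟩) ?_
      rw [cw, if_neg hx', if_neg]
      exact not_disjoint_iff.2 ⟨x, self_mem_cls P x, hx⟩

theorem wt_cw_congr {P P' : Setoid V} {q κ : ℝ} {W W' T : Finset V}
    (h : ∀ x, Disjoint (cls P x) W ↔ Disjoint (cls P' x) W')
    (h' : ∀ x, Disjoint (cls P x) W → cls P x = cls P' x) :
    wt (cw q κ W T) P = wt (cw q κ W' T) P' := by
  classical
  rw [wt_cw_split, wt_cw_split]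
  have h1 : (classes P).filter (fun c => Disjoint c W) =
      (classes P').filter (fun c => Disjoint c W') := by
    ext c
    rw [mem_filter, mem_filter, mem_classes, mem_classes]
    constructor
    · rintro ⟨⟨x, rfl⟩, hc⟩
      have := h' x hc
      exact ⟨⟨x, this.symm⟩, this ▸ (h x).1 hc⟩
    · rintro ⟨⟨x, rfl⟩, hc⟩
      have hc' := (h x).2 hc
      have := h' x hc'
      exact ⟨⟨x, this⟩, this ▸ hc'⟩
  rw [h1]
  congr 1
  simp only [h]

variable (a b : E → V)

/-! ### The component of `W` off `t` -/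

open Classical in
/-- The vertices joined to `W` by open edges which avoid `t`. -/
noncomputable def clW (W t : Finset V) (ω : Finset E) : Finset V :=
  tᶜ.filter fun x => ∃ z ∈ W, conf a b (res a b tᶜ ω) z x

/-- The open edges of the components of `W` off `t`. -/
noncomputable def oW (W t : Finset V) (ω : Finset E) : Finset E :=
  res a b (clW a b W t ω) ω

/-- The edges between `A` and `t`. -/
def cr (A t : Finset V) : Finset E :=
  univ.filter fun e => (a e ∈ A ∧ b e ∈ t) ∨ (a e ∈ t ∧ b e ∈ A)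

variable {a b}

theorem mem_cr {A t : Finset V} {e : E} :
    e ∈ cr a b A t ↔ (a e ∈ A ∧ b e ∈ t) ∨ (a e ∈ t ∧ b e ∈ A) := by
  simp [cr]

theorem mem_clW {W t : Finset V} {ω : Finset E} {x : V} :
    x ∈ clW a b W t ω ↔ x ∉ t ∧ ∃ z ∈ W, conf a b (res a b tᶜ ω) z x := by
  simp [clW]

theorem subset_clW {W t : Finset V} (h : Disjoint W t) (ω : Finset E) :
    W ⊆ clW a b W t ω :=
  fun x hx => mem_clW.2 ⟨disjoint_left.1 h hx, x, hx, Setoid.refl' _ x⟩

theorem clW_disjoint (W t : Finset V) (ω : Finset E) : Disjoint (clW a b W t ω) t :=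
  disjoint_left.2 fun _ hx => (mem_clW.1 hx).1

theorem clW_mono {W t t' : Finset V} (h : t ⊆ t') {ω ω' : Finset E} (hω : ω' ⊆ ω) :
    clW a b W t' ω' ⊆ clW a b W t ω := by
  intro x hx
  rw [mem_clW] at hx ⊢
  obtain ⟨h1, z, hz, h2⟩ := hx
  refine ⟨fun k => h1 (h k), z, hz, conf_mono a b (fun e he => ?_) h2⟩
  rw [mem_res, mem_compl, mem_compl] at he ⊢
  exact ⟨hω he.1, fun k => he.2.1 (h k), fun k => he.2.2 (h k)⟩

theorem oW_mono {W t t' : Finset V} (h : t ⊆ t') {ω ω' : Finset E} (hω : ω' ⊆ ω) :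
    oW a b W t' ω' ⊆ oW a b W t ω := by
  intro e he
  rw [oW, mem_res] at he ⊢
  exact ⟨hω he.1, clW_mono h hω he.2.1, clW_mono h hω he.2.2⟩

/-- The edges of a configuration whose component of `W` off `t` is `A`. -/
def wh (a b : E → V) (A t : Finset V) : Finset E := inE a b A ∪ (cr a b A t ∪ inE a b Aᶜ)

theorem clW_eq_iff {W t A : Finset V} (hWA : W ⊆ A) (hAt : Disjoint A t) {ω : Finset E} :
    clW a b W t ω = A ↔
      ω ⊆ wh a b A t ∧ ∀ x ∈ A, ∃ z ∈ W, conf a b (res a b A ω) z x := by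
  have hAt' : ∀ x ∈ A, x ∉ t := fun x hx => disjoint_left.1 hAt hx
  constructor
  · intro h
    have h1 : ∀ e ∈ ω, a e ∈ A → b e ∉ t → b e ∈ A := by
      intro e he ha hb
      rw [← h, mem_clW] at ha
      rw [← h, mem_clW]
      obtain ⟨h2, z, hz, h3⟩ := ha
      refine ⟨hb, z, hz, Setoid.trans' _ h3 (conf_edge a b ?_)⟩
      rw [mem_res, mem_compl, mem_compl]
      exact ⟨he, h2, hb⟩
    have h2 : ∀ e ∈ ω, b e ∈ A → a e ∉ t → a e ∈ A := by
      intro e he hb ha
      rw [← h, mem_clW] at hb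
      rw [← h, mem_clW]
      obtain ⟨h2, z, hz, h3⟩ := hb
      refine ⟨ha, z, hz, Setoid.trans' _ h3 (Setoid.symm' _ (conf_edge a b ?_))⟩
      rw [mem_res, mem_compl, mem_compl]
      exact ⟨he, ha, h2⟩
    constructor
    · intro e he
      rw [wh, mem_union, mem_union, mem_inE, mem_inE, mem_cr, mem_compl, mem_compl]
      by_cases ha : a e ∈ A <;> by_cases hb : b e ∈ A
      · exact Or.inl ⟨ha, hb⟩
      · refine Or.inr (Or.inl (Or.inl ⟨ha, ?_⟩))
        by_contra hbt
        exact hb (h1 e he ha hbt)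
      · refine Or.inr (Or.inl (Or.inr ⟨?_, hb⟩))
        by_contra hat
        exact ha (h2 e he hb hat)
      · exact Or.inr (Or.inr ⟨ha, hb⟩)
    · intro x hx
      have hx' := hx
      rw [← h, mem_clW] at hx'
      obtain ⟨-, z, hz, h3⟩ := hx'
      refine ⟨z, hz, ?_⟩
      have hc : Closed a b A (res a b tᶜ ω) := by
        intro e he
        rw [mem_res, mem_compl, mem_compl] at he
        exact ⟨fun ha => h1 e he.1 ha he.2.2, fun hb => h2 e he.1 hb he.2.1⟩
      have h4 : res a b A (res a b tᶜ ω) = res a b A ω := by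
        ext e
        rw [mem_res, mem_res, mem_res, mem_compl, mem_compl]
        constructor
        · rintro ⟨⟨h5, -⟩, h6⟩
          exact ⟨h5, h6⟩
        · rintro ⟨h5, h6⟩
          exact ⟨⟨h5, hAt' _ h6.1, hAt' _ h6.2⟩, h6⟩
      rw [← h4]
      exact (conf_res hc (hWA hz)).1 h3
  · rintro ⟨hω, hA⟩
    have hc : Closed a b A (res a b tᶜ ω) := by
      intro e he
      rw [mem_res, mem_compl, mem_compl] at he
      have := hω he.1
      rw [wh, mem_union, mem_union, mem_inE, mem_inE, mem_cr, mem_compl, mem_compl] at this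
      tauto
    ext x
    rw [mem_clW]
    constructor
    · rintro ⟨-, z, hz, h⟩
      exact (hc.mem_iff h).1 (hWA hz)
    · intro hx
      refine ⟨hAt' x hx, ?_⟩
      obtain ⟨z, hz, h⟩ := hA x hx
      refine ⟨z, hz, conf_mono a b (fun e he => ?_) h⟩
      rw [mem_res] at he
      rw [mem_res, mem_compl, mem_compl]
      exact ⟨he.1, hAt' _ he.2.1, hAt' _ he.2.2⟩

/-! ### Three pieces -/

section three

variable {W t A : Finset V} {ξ ζ η : Finset E}

theorem disjoint_inE_wh (hAt : Disjoint A t) :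
    Disjoint (inE a b A) (cr a b A t ∪ inE a b Aᶜ) := by
  rw [disjoint_left]
  intro e he he'
  rw [mem_union, mem_cr, mem_inE, mem_compl, mem_compl] at he'
  rw [mem_inE] at he
  have h1 : ∀ x ∈ A, x ∉ t := fun x hx => disjoint_left.1 hAt hx
  rcases he' with (h | h) | h
  · exact h1 _ he.2 h.2
  · exact h1 _ he.1 h.1
  · exact h.1 he.1

theorem disjoint_cr_inE : Disjoint (cr a b A t) (inE a b Aᶜ) := by
  rw [disjoint_left]
  intro e he he'
  rw [mem_cr] at he
  rw [mem_inE, mem_compl, mem_compl] at he'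
  tauto

theorem res_three (hAt : Disjoint A t) (hξ : ξ ⊆ inE a b A) (hζ : ζ ⊆ cr a b A t)
    (hη : η ⊆ inE a b Aᶜ) : res a b A (ξ ∪ (ζ ∪ η)) = ξ := by
  have h1 : ∀ x ∈ A, x ∉ t := fun x hx => disjoint_left.1 hAt hx
  ext e
  rw [mem_res, mem_union, mem_union]
  constructor
  · rintro ⟨h | h | h, h'⟩
    · exact h
    · have := mem_cr.1 (hζ h)
      rcases this with h2 | h2
      · exact absurd h2.2 (h1 _ h'.2)
      · exact absurd h2.1 (h1 _ h'.1)
    · exact absurd h'.1 (mem_compl.1 (mem_inE.1 (hη h)).1)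
  · intro h
    exact ⟨Or.inl h, mem_inE.1 (hξ h)⟩

/-- The weight of a configuration depends only on the part in `Aᶜ`. -/
theorem wt_three (hWA : W ⊆ A) (hξ : ξ ⊆ inE a b A) (hζ : ζ ⊆ cr a b A t)
    (_hη : η ⊆ inE a b Aᶜ) (hA : ∀ x ∈ A, ∃ z ∈ W, conf a b ξ z x) {q κ : ℝ} {X : Finset V} :
    wt (cw q κ (W ∪ t) X) (conf a b (ξ ∪ (ζ ∪ η))) =
      wt (cw q κ (A ∪ t) X) (conf a b η) := by
  have hle : conf a b η ≤ conf a b (ξ ∪ (ζ ∪ η)) :=
    conf_mono a b (subset_union_right.trans subset_union_right)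
  have hle' : conf a b ξ ≤ conf a b (ξ ∪ (ζ ∪ η)) := conf_mono a b subset_union_left
  have claim1 : ∀ x, Disjoint (cls (conf a b (ξ ∪ (ζ ∪ η))) x) (W ∪ t) →
      cls (conf a b (ξ ∪ (ζ ∪ η))) x = cls (conf a b η) x ∧
        Disjoint (cls (conf a b η) x) (A ∪ t) := by
    intro x hx
    rw [disjoint_union_right] at hx
    have hxA : ∀ y ∈ cls (conf a b (ξ ∪ (ζ ∪ η))) x, y ∉ A := by
      intro y hy hyA
      obtain ⟨z, hz, hzy⟩ := hA y hyA
      refine disjoint_left.1 hx.1 (mem_cls.2 ?_) hz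
      exact Setoid.trans' _ (mem_cls.1 hy) (Setoid.symm' _ (hle' hzy))
    have hcl : Closed a b (cls (conf a b (ξ ∪ (ζ ∪ η))) x) (ξ ∪ (ζ ∪ η)) := by
      intro e he
      rw [mem_cls, mem_cls]
      exact ⟨fun h => Setoid.trans' _ h (conf_edge a b he),
        fun h => Setoid.trans' _ h (Setoid.symm' _ (conf_edge a b he))⟩
    have heq : cls (conf a b (ξ ∪ (ζ ∪ η))) x = cls (conf a b η) x := by
      apply Subset.antisymm
      · intro y hy
        rw [mem_cls] at hy ⊢
        rw [conf_res hcl (self_mem_cls _ x)] at hy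
        refine conf_mono a b (fun e he => ?_) hy
        rw [mem_res, mem_union, mem_union] at he
        obtain ⟨h1 | h1 | h1, h2, h3⟩ := he
        · exact absurd (mem_inE.1 (hξ h1)).1 (hxA _ h2)
        · rcases mem_cr.1 (hζ h1) with h4 | h4
          · exact absurd h4.1 (hxA _ h2)
          · exact absurd h4.2 (hxA _ h3)
        · exact h1
      · intro y hy
        rw [mem_cls] at hy ⊢
        exact hle hy
    refine ⟨heq, ?_⟩
    rw [← heq, disjoint_union_right]
    exact ⟨disjoint_left.2 hxA, hx.2⟩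
  refine wt_cw_congr (fun x => ⟨fun h => (claim1 x h).2, fun h => ?_⟩) fun x h => (claim1 x h).1
  rw [disjoint_union_right] at h
  have hcl : Closed a b (cls (conf a b η) x) (ξ ∪ (ζ ∪ η)) := by
    have h0 : ∀ y, y ∈ cls (conf a b η) x → y ∉ A ∧ y ∉ t := fun y hy =>
      ⟨disjoint_left.1 h.1 hy, disjoint_left.1 h.2 hy⟩
    intro e he
    rw [mem_union, mem_union] at he
    rcases he with he | he | he
    · have := mem_inE.1 (hξ he)
      exact ⟨fun k => absurd this.1 (h0 _ k).1, fun k => absurd this.2 (h0 _ k).1⟩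
    · rcases mem_cr.1 (hζ he) with h4 | h4
      · exact ⟨fun k => absurd h4.1 (h0 _ k).1, fun k => absurd h4.2 (h0 _ k).2⟩
      · exact ⟨fun k => absurd h4.1 (h0 _ k).2, fun k => absurd h4.2 (h0 _ k).1⟩
    · rw [mem_cls, mem_cls]
      exact ⟨fun k => Setoid.trans' _ k (conf_edge a b he),
        fun k => Setoid.trans' _ k (Setoid.symm' _ (conf_edge a b he))⟩
  have hsub := cls_subset hcl (self_mem_cls _ x)
  rw [disjoint_union_right]
  exact ⟨(h.1.mono_left hsub).mono_right hWA, h.2.mono_left hsub⟩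

end three

/-! ### The decomposition -/

variable (a b)
variable (w : E → ℝ)

/-- The weights outside of `A`. -/
def wA (A : Finset V) (e : E) : ℝ := if e ∈ inE a b Aᶜ then w e else 0

open Classical in
/-- The sum over the configurations on `A` in which all of `A` is joined to `W`. -/
noncomputable def cA (W : Finset V) (f : Finset E → ℝ) (A : Finset V) : ℝ :=
  ∑ ξ ∈ (inE a b A).powerset with ∀ x ∈ A, ∃ z ∈ W, conf a b ξ z x, (∏ e ∈ ξ, w e) * f ξ

/-- The sum of `f` of the open edges of the component of `W` off `t`; `W ∪ t` is wired, the classes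
which meet `X` have the weight `κ` and miss `W ∪ t`. -/
noncomputable def MM (q κ : ℝ) (W t X : Finset V) (f : Finset E → ℝ) : ℝ :=
  ∑ ω ∈ (univ : Finset E).powerset, (∏ e ∈ ω, w e) *
    wt (cw q κ (W ∪ t) X) (conf a b ω) * f (oW a b W t ω)

theorem NN_wA (q κ : ℝ) (X A D : Finset V) :
    NN a b (wA a b w A) q κ X D =
      ∑ η ∈ (inE a b Aᶜ).powerset, (∏ e ∈ η, w e) * wt (cw q κ Dᶜ X) (conf a b η) := by
  rw [NN]
  symm
  rw [← sum_subset (powerset_mono.2 (subset_univ (inE a b Aᶜ)))]
  · refine sum_congr rfl fun η hη => ?_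
    rw [mem_powerset] at hη
    congr 1
    refine prod_congr rfl fun e he => ?_
    rw [wA, if_pos (hη he)]
  · intro η _ hη
    rw [mem_powerset, not_subset] at hη
    obtain ⟨e, he, he'⟩ := hη
    rw [prod_eq_zero he, zero_mul]
    rw [wA, if_neg he']

theorem MM_eq {q κ : ℝ} {W t X : Finset V} {f : Finset E → ℝ} (hWt : Disjoint W t) :
    MM a b w q κ W t X f = ∑ A ∈ tᶜ.powerset with W ⊆ A,
      cA a b w W f A * ((∏ e ∈ cr a b A t, (1 + w e)) *
        NN a b (wA a b w A) q κ X (A ∪ t)ᶜ) := by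
  classical
  rw [MM, ← sum_fiberwise_of_maps_to (g := fun ω => clW a b W t ω)
    (t := tᶜ.powerset.filter fun A => W ⊆ A)]
  · refine sum_congr rfl fun A hA => ?_
    rw [mem_filter, mem_powerset, subset_compl_iff_disjoint_right] at hA
    obtain ⟨hAt, hWA⟩ := hA
    have h1 : (univ : Finset E).powerset.filter (fun ω => clW a b W t ω = A) =
        (inE a b A ∪ (cr a b A t ∪ inE a b Aᶜ)).powerset.filter
          (fun ω => ∀ x ∈ A, ∃ z ∈ W, conf a b (res a b A ω) z x) := by
      ext ω
      rw [mem_filter, mem_filter, mem_powerset, mem_powerset, clW_eq_iff hWA hAt]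
      exact ⟨fun h => h.2, fun h => ⟨subset_univ _, h⟩⟩
    have h2 : ∑ ω ∈ (univ : Finset E).powerset with clW a b W t ω = A, (∏ e ∈ ω, w e) *
        wt (cw q κ (W ∪ t) X) (conf a b ω) * f (oW a b W t ω) =
        ∑ ω ∈ (univ : Finset E).powerset with clW a b W t ω = A, (∏ e ∈ ω, w e) *
          wt (cw q κ (W ∪ t) X) (conf a b ω) * f (res a b A ω) := by
      refine sum_congr rfl fun ω hω => ?_
      rw [oW, (mem_filter.1 hω).2]
    rw [h2, h1, sum_filter, sum_powerset_union' (disjoint_inE_wh hAt), cA, sum_filter, sum_mul]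
    refine sum_congr rfl fun ξ hξ => ?_
    rw [mem_powerset] at hξ
    rw [sum_powerset_union' disjoint_cr_inE, prod_one_add, NN_wA, sum_mul_sum, mul_sum]
    refine sum_congr rfl fun ζ hζ => ?_
    rw [mul_sum]
    refine sum_congr rfl fun η hη => ?_
    rw [mem_powerset] at hζ hη
    have h3 := res_three hAt hξ hζ hη
    by_cases hc : ∀ x ∈ A, ∃ z ∈ W, conf a b ξ z x
    · rw [if_pos (by rw [h3]; exact hc), if_pos hc, h3, wt_three hWA hξ hζ hη hc, compl_compl,
        prod_union ((disjoint_inE_wh hAt).mono hξ (union_subset_union hζ hη)),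
        prod_union (disjoint_cr_inE.mono hζ hη)]
      ring
    · rw [if_neg (by rw [h3]; exact hc), if_neg hc, zero_mul]
  · intro ω _
    rw [mem_filter, mem_powerset, subset_compl_iff_disjoint_right]
    exact ⟨clW_disjoint W t ω, subset_clW hWt ω⟩

end Vale.Agent.P167.H661
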